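import Mathlib
import Vale.Agent.P033_h26.Main

/-!
# P033 (partial): circulant Hadamard matrices are far from products

Let `n = s t` with `gcd(s, t) = 1` and `s > 1` odd. If `h : ℤ/n → {1, -1}` is the first row of a
circulant Hadamard matrix then for all `a : ℤ/s → {1, -1}` and `b : ℤ/t → {1, -1}` the row `h`
differs from `x ↦ a(x mod s) b(x mod t)` in at least `t/4 = n/(4s)` places.
-/

namespace Vale.Agent.Results.P033.FarFromProducts

open Vale.Agent.P033H

theorem result :
    ∀ (s t : ℕ) [NeZero s] [NeZero t], s.Coprime t → Odd s → 1 < s →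
      ∀ h : ZMod (s * t) → ℤ, IsHadamardRow (s * t) h →
      ∀ (a : ZMod s → ℤ) (b : ZMod t → ℤ), (∀ x, a x = 1 ∨ a x = -1) →
        (∀ x, b x = 1 ∨ b x = -1) →
        t ≤ 4 * (Finset.univ.filter fun x => h x ≠ prod s t a b x).card :=
  fun s t _ _ hst hs hs1 h hh a b ha hb => main s t hst hs hs1 h hh a b ha hb

end Vale.Agent.Results.P033.FarFromProducts
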