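import Vale.Agent.P033B.Defs
import Vale.Agent.P033B.Main

open Vale.Agent.P033B

namespace Vale.Agent.Results.P033.PeriodicProducts

theorem result :
    -- block form: all blocks of length `m` equal up to sign
    (∀ (k m : ℕ) (h : ℕ → ℤ), 2 ≤ k → 2 ≤ m → CircHad (k * m) h →
      ¬ ∃ a b : ℕ → ℤ, ∀ j < k, ∀ r < m, h (m * j + r) = b j * a r) ∧
    -- products of two sequences of smaller periods
    (∀ (n : ℕ) (h : ℕ → ℤ), CircHad n h → ∀ m k : ℕ, m ∣ n → k ∣ n → m < n → k < n →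
      ∀ α β : ℕ → ℤ, (∀ j, α (j + m) = α j) → (∀ j, β (j + k) = β j) →
        (∀ j < n, h j = α j * β j) → 4 ∣ m ∧ 4 ∣ k) ∧
    -- in particular no product with coprime periods
    (∀ (m k : ℕ) (h : ℕ → ℤ), 2 ≤ m → 2 ≤ k → Nat.Coprime m k → CircHad (m * k) h →
      ¬ ∃ a b : ℕ → ℤ, ∀ j < m * k, h j = a (j % m) * b (j % k)) := by
  have hper : ∀ (n : ℕ) (h : ℕ → ℤ), CircHad n h → ∀ m k : ℕ, m ∣ n → k ∣ n → m < n → k < n →
      ∀ α β : ℕ → ℤ, (∀ j, α (j + m) = α j) → (∀ j, β (j + k) = β j) →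
        (∀ j < n, h j = α j * β j) → 4 ∣ m ∧ 4 ∣ k := by
    intro n h hh m k hm hk hmn hkn α β hα hβ hab
    have hm0 : 0 < m := Nat.pos_of_dvd_of_pos hm (by omega)
    have hk0 : 0 < k := Nat.pos_of_dvd_of_pos hk (by omega)
    exact ⟨periodic_four hh hk hm hk0 hm0 hkn hmn hβ hα fun j hj => by rw [hab j hj, mul_comm],
      periodic_four hh hm hk hm0 hk0 hmn hkn hα hβ hab⟩
  refine ⟨?_, hper, ?_⟩
  · rintro k m h hk hm hh ⟨a, b, hab⟩
    exact kron hk hm hh hab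
  · rintro m k h hm hk hco hh ⟨a, b, hab⟩
    have h1 : m < m * k := by nlinarith
    have h2 : k < m * k := by nlinarith
    obtain ⟨h3, h4⟩ := hper (m * k) h hh m k (dvd_mul_right _ _) (dvd_mul_left _ _) h1 h2
      (fun j => a (j % m)) (fun j => b (j % k)) (fun j => by simp) (fun j => by simp) hab
    have h5 : 4 ∣ Nat.gcd m k := Nat.dvd_gcd h3 h4
    rw [hco] at h5
    omega

end Vale.Agent.Results.P033.PeriodicProducts
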