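import Vale.Agent.P033_h22.Main

namespace Vale.Agent.Results.P033.ProductRows

open Vale.Agent.P033h22

/-- (1) The first row of a circulant Hadamard matrix of order `m k`, `m, k ≥ 2`, is not a
concatenation of `k` blocks each of which is `B` or `-B` for one block `B` of length `m`.
(2) It is not the product of an `m`-periodic and a `k`-periodic sign sequence if the order is
`lcm(m, k)`, neither of `m, k` divides the other and `gcd(m, k)` is odd. -/
theorem result :
    (∀ (m k : ℕ) (h b c : ℕ → ℤ), 2 ≤ m → 2 ≤ k →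
      (∀ i < m, b i = 1 ∨ b i = -1) → (∀ j < k, c j = 1 ∨ c j = -1) →
      (∀ n < m * k, h n = b (n % m) * c (n / m)) → ¬ IsCirculantHadamardRow h (m * k)) ∧
    (∀ (m k : ℕ) (h b c : ℕ → ℤ), 0 < m → 0 < k → ¬ m ∣ k → ¬ k ∣ m → Odd (Nat.gcd m k) →
      (∀ i < m, b i = 1 ∨ b i = -1) → (∀ j < k, c j = 1 ∨ c j = -1) →
      (∀ n < Nat.lcm m k, h n = b (n % m) * c (n % k)) →
        ¬ IsCirculantHadamardRow h (Nat.lcm m k)) := by
  refine ⟨?_, ?_⟩
  · intro m k h b c hm hk hb hc heq hrow
    have h1 : m < m * k := by nlinarith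
    have e := autocorr_congr heq
    refine blocks hm hk b c hb hc ⟨?_, ?_⟩
    · rw [← e]; exact hrow.2 m (by omega) h1
    · rw [← e]; exact hrow.2 (m - 1) (by omega) (by omega)
  · intro m k h b c hm hk hmk hkm hd hb hc heq hrow
    refine periodic hm hk hmk hkm hd b c hb hc ⟨?_, ?_⟩
    · intro j hj
      have := hrow.1 j hj
      rwa [heq j hj] at this
    · intro t h1 h2
      rw [← autocorr_congr heq]
      exact hrow.2 t h1 h2

end Vale.Agent.Results.P033.ProductRows
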