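import Vale.Agent.P033_h25.Main

open Finset Matrix

/-- Let `h` be a sequence of signs that generates a circulant Hadamard matrix of order `m n` (the
matrix with entries `h (i - j)`; equivalently its transpose, whose first row is `h`), where `m ≥ 2`
and `n ≥ 2`. Then `h` differs in more than `n / 8` positions from every row of the
form `h (m j + i) = b i * c j` (`0 ≤ i < m`, `0 ≤ j < n`), i.e. from every concatenation of `n`
signed copies of one block `b` of length `m`. In particular it is not of this form. -/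
theorem Vale.Agent.Results.P033.SignedBlocks.result (m n : ℕ) [NeZero (m * n)] (hm : 2 ≤ m)
    (hn : 2 ≤ n) (h : ZMod (m * n) → ℤ) (hh : ∀ x, h x = 1 ∨ h x = -1)
    (hH : (Matrix.circulant h) * (Matrix.circulant h)ᵀ =
      ((m * n : ℕ) : ℤ) • (1 : Matrix (ZMod (m * n)) (ZMod (m * n)) ℤ)) :
    (∀ b c : ℕ → ℤ, (∀ i, b i = 1 ∨ b i = -1) → (∀ j, c j = 1 ∨ c j = -1) →
      n < 8 * ((range (m * n)).filter (fun x : ℕ =>
        h (x : ZMod (m * n)) ≠ b (x % m) * c (x / m))).card) ∧
    ¬ ∃ b c : ℕ → ℤ, (∀ i, b i = 1 ∨ b i = -1) ∧ (∀ j, c j = 1 ∨ c j = -1) ∧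
      ∀ i j : ℕ, i < m → j < n → h ((m * j + i : ℕ) : ZMod (m * n)) = b i * c j := by
  have hmain : ∀ b c : ℕ → ℤ, (∀ i, b i = 1 ∨ b i = -1) → (∀ j, c j = 1 ∨ c j = -1) →
      n < 8 * ((range (m * n)).filter (fun x : ℕ =>
        h (x : ZMod (m * n)) ≠ b (x % m) * c (x / m))).card := by
    intro b c hb hc
    refine Vale.Agent.P033h25.main_seq m n hm hn b c (fun x : ℕ => h (x : ZMod (m * n))) hb hc
      (fun i => hh _) (fun x => ?_) ?_
    · push_cast
      have : ((m : ZMod (m * n)) * (n : ZMod (m * n))) = 0 := by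
        exact_mod_cast ZMod.natCast_self (m * n)
      rw [this, add_zero]
    · intro t ht0 ht
      have h1 := Vale.Agent.P033h25.sum_zmod (m * n) (fun x => h x * h (x + (t : ZMod (m * n))))
      have h2 : ∑ x ∈ range (m * n), h (x : ZMod (m * n)) * h ((x + t : ℕ) : ZMod (m * n)) =
          ∑ x : ZMod (m * n), h x * h (x + (t : ZMod (m * n))) := by
        rw [h1]
        refine Finset.sum_congr rfl fun x _ => ?_
        push_cast
        rfl
      have h3 := congrFun (congrFun hH 0) (t : ZMod (m * n))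
      rw [Matrix.mul_apply] at h3
      simp only [Matrix.circulant_apply, Matrix.transpose_apply, Matrix.smul_apply] at h3
      have ht' : (0 : ZMod (m * n)) ≠ (t : ZMod (m * n)) := by
        intro hc
        have h4 := congrArg ZMod.val hc
        rw [ZMod.val_zero, ZMod.val_cast_of_lt ht] at h4
        omega
      rw [Matrix.one_apply_ne ht', smul_zero] at h3
      show ∑ x ∈ range (m * n), h (x : ZMod (m * n)) * h ((x + t : ℕ) : ZMod (m * n)) = 0
      rw [h2, ← h3]
      refine Fintype.sum_equiv (Equiv.neg _) _ _ fun x => ?_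
      simp only [Equiv.neg_apply]
      congr 1
      · congr 1
        ring
      · congr 1
        ring
  refine ⟨hmain, ?_⟩
  rintro ⟨b, c, hb, hc, hbc⟩
  have h1 := hmain b c hb hc
  have h2 : (range (m * n)).filter (fun x : ℕ =>
      h (x : ZMod (m * n)) ≠ b (x % m) * c (x / m)) = ∅ := by
    rw [Finset.filter_eq_empty_iff]
    intro x hx hne
    rw [Finset.mem_range] at hx
    apply hne
    have h3 := hbc (x % m) (x / m) (Nat.mod_lt _ (by omega)) (Nat.div_lt_of_lt_mul hx)
    rwa [Nat.div_add_mod] at h3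
  rw [h2] at h1
  simp at h1
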